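import Mathlib

open Finset

set_option linter.unusedSectionVars false

namespace Vale.Agent.P038.H857

variable {V : Type*} [Fintype V] [DecidableEq V]

/-- Second out-neighbours: reached by a path of length two, not out-neighbours, not `v`. -/
def nn2 (O : V → Finset V) (v : V) : Finset V :=
  univ.filter fun z => z ≠ v ∧ z ∉ O v ∧ ∃ c ∈ O v, z ∈ O c

/-- No loops and no 2-cycles. -/
def Ori (O : V → Finset V) : Prop := ∀ u v, v ∈ O u → u ∉ O v

/-- Counterexample. -/
def CE (O : V → Finset V) : Prop := Ori O ∧ ∀ v, (nn2 O v).card < (O v).card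

/-- Closed out-neighbourhood. -/
def cn (O : V → Finset V) (v : V) : Finset V := insert v (O v)

/-- Closed out-neighbourhood of a set. -/
def NN (N : V → Finset V) (S : Finset V) : Finset V := S.biUnion N

theorem mem_NN {N : V → Finset V} {S : Finset V} {x : V} : x ∈ NN N S ↔ ∃ s ∈ S, x ∈ N s := by
  simp [NN]

theorem NN_union (N : V → Finset V) (S T : Finset V) : NN N (S ∪ T) = NN N S ∪ NN N T := by
  ext x; simp only [mem_NN, Finset.mem_union]
  constructor
  · rintro ⟨s, h | h, hx⟩
    exacts [Or.inl ⟨s, h, hx⟩, Or.inr ⟨s, h, hx⟩]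
  · rintro (⟨s, h, hx⟩ | ⟨s, h, hx⟩)
    exacts [⟨s, Or.inl h, hx⟩, ⟨s, Or.inr h, hx⟩]

theorem NN_mono (N : V → Finset V) {S T : Finset V} (h : S ⊆ T) : NN N S ⊆ NN N T := by
  intro x hx
  obtain ⟨s, hs, hx⟩ := mem_NN.1 hx
  exact mem_NN.2 ⟨s, h hs, hx⟩

theorem sub_NN (O : V → Finset V) (S : Finset V) : S ⊆ NN (cn O) S := fun x hx =>
  mem_NN.2 ⟨x, hx, Finset.mem_insert_self _ _⟩

/-- The boundary size. -/
def bd (N : V → Finset V) (S : Finset V) : ℤ := (NN N S).card - S.card

/-- Statement (G): in an inclusion-minimal counterexample, `c(N[S]) < c(S)` unless `N[S] = S`. -/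
theorem G {O : V → Finset V} (hO : CE O)
    (hmin : ∀ O' : V → Finset V, CE O' → (∀ v, O' v ⊆ O v) → O' = O)
    (S : Finset V) (hS : NN (cn O) S ≠ S) :
    bd (cn O) (NN (cn O) S) < bd (cn O) S := by
  classical
  by_contra hcon
  rw [not_lt] at hcon
  set N := cn O with hN
  set L := NN N S \ S with hL
  have hSN : S ⊆ NN N S := sub_NN O S
  have hLne : L ≠ ∅ := by
    intro h
    exact hS (subset_antisymm (Finset.sdiff_eq_empty_iff_subset.1 h) hSN)
  have hLN : L ⊆ NN N L := sub_NN O L
  have e1 : NN N S = S ∪ L := by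
    rw [hL, Finset.union_sdiff_of_subset hSN]
  have dSL : Disjoint S L := by
    rw [hL]; exact Finset.disjoint_sdiff
  have e2 : NN N (NN N S) = S ∪ (NN N L \ S) := by
    conv_lhs => rw [e1, NN_union, e1]
    ext x
    simp only [Finset.mem_union, Finset.mem_sdiff]
    constructor
    · rintro ((h | h) | h)
      · exact Or.inl h
      · by_cases hx : x ∈ S
        · exact Or.inl hx
        · exact Or.inr ⟨hLN h, hx⟩
      · by_cases hx : x ∈ S
        · exact Or.inl hx
        · exact Or.inr ⟨h, hx⟩
    · rintro (h | h)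
      · exact Or.inl (Or.inl h)
      · exact Or.inr h.1
  have c1 : (NN N S).card = S.card + L.card := by
    rw [e1, Finset.card_union_of_disjoint dSL]
  have c2 : (NN N (NN N S)).card = S.card + (NN N L \ S).card := by
    rw [e2, Finset.card_union_of_disjoint Finset.disjoint_sdiff]
  have hd : 2 * (L.card : ℤ) ≤ (NN N L \ S).card := by
    unfold bd at hcon
    rw [c2, c1] at hcon
    push_cast at hcon
    linarith
  -- the minimiser
  let d : Finset V → ℤ := fun T => ((NN N T \ S).card : ℤ) - 2 * T.card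
  have hne : (L.powerset.erase L).Nonempty :=
    ⟨∅, Finset.mem_erase.2 ⟨fun h => hLne h.symm, Finset.empty_mem_powerset _⟩⟩
  obtain ⟨T, hT, hTmin⟩ := Finset.exists_min_image _ d hne
  rw [Finset.mem_erase, Finset.mem_powerset] at hT
  obtain ⟨hTL, hTsub⟩ := hT
  have d0 : d ∅ = 0 := by simp [d, NN]
  have hT0 : d T ≤ 0 := by
    rw [← d0]
    exact hTmin ∅ (Finset.mem_erase.2 ⟨fun h => hLne h.symm, Finset.empty_mem_powerset _⟩)
  have hdT : ∀ E, E ⊆ L → Disjoint T E → 2 * E.card ≤ (NN N E \ (NN N T ∪ S)).card := by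
    intro E hE hTE
    have h1 : d T ≤ d (T ∪ E) := by
      by_cases h : T ∪ E = L
      · rw [h]
        have : 0 ≤ d L := by simp only [d]; linarith
        linarith
      · exact hTmin _ (Finset.mem_erase.2 ⟨h, Finset.mem_powerset.2
          (Finset.union_subset hTsub hE)⟩)
    have h2 : NN N (T ∪ E) \ S = (NN N T \ S) ∪ (NN N E \ (NN N T ∪ S)) := by
      rw [NN_union]
      ext x
      simp only [Finset.mem_union, Finset.mem_sdiff]
      tauto
    have h3 : Disjoint (NN N T \ S) (NN N E \ (NN N T ∪ S)) := by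
      rw [Finset.disjoint_left]
      intro x h1 h2
      simp only [Finset.mem_sdiff, Finset.mem_union, not_or] at h1 h2
      exact h2.2.1 h1.1
    simp only [d] at h1
    rw [h2, Finset.card_union_of_disjoint h3, Finset.card_union_of_disjoint hTE] at h1
    push_cast at h1
    have : 2 * (E.card : ℤ) ≤ ((NN N E \ (NN N T ∪ S)).card : ℤ) := by linarith
    exact_mod_cast this
  have dST : Disjoint S T := dSL.mono_right hTsub
  -- the new graph
  let O' : V → Finset V := fun v => if v ∈ S then O v ∩ (S ∪ T) else O v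
  have hsub : ∀ v, O' v ⊆ O v := by
    intro v
    simp only [O']
    split_ifs
    · exact Finset.inter_subset_left
    · exact subset_refl _
  have hne' : O' ≠ O := by
    intro h
    have : ∃ x ∈ L, x ∉ T := by
      by_contra hc
      push Not at hc
      exact hTL (subset_antisymm hTsub hc)
    obtain ⟨x, hxL, hxT⟩ := this
    have hxS : x ∉ S := (Finset.mem_sdiff.1 hxL).2
    obtain ⟨y, hy, hxy⟩ := mem_NN.1 (Finset.mem_sdiff.1 hxL).1
    have hxO : x ∈ O y := by
      rcases Finset.mem_insert.1 hxy with h | h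
      · exact absurd (h ▸ hy) hxS
      · exact h
    have : x ∈ O' y := by rw [h]; exact hxO
    simp only [O', hy, if_true, Finset.mem_inter, Finset.mem_union] at this
    rcases this.2 with h | h
    exacts [hxS h, hxT h]
  refine hne' (hmin O' ⟨fun u v h h' => hO.1 u v (hsub _ h) (hsub _ h'), ?_⟩ hsub)
  intro y
  by_cases hy : y ∈ S
  · set D := O y \ (S ∪ T) with hD
    set E := NN N D \ (NN N T ∪ S) with hE
    have hDL : D ⊆ L := by
      intro x hx
      rw [hD, Finset.mem_sdiff, Finset.mem_union, not_or] at hx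
      rw [hL, Finset.mem_sdiff]
      exact ⟨mem_NN.2 ⟨y, hy, Finset.mem_insert_of_mem hx.1⟩, hx.2.1⟩
    have hTD : Disjoint T D := by
      rw [Finset.disjoint_left]
      intro x h1 h2
      rw [hD, Finset.mem_sdiff, Finset.mem_union, not_or] at h2
      exact h2.2.2 h1
    have hcard : 2 * D.card ≤ E.card := hdT D hDL hTD
    have hO'y : O' y = O y ∩ (S ∪ T) := by simp only [O', hy, if_true]
    have cO : (O y).card = (O' y).card + D.card := by
      rw [hO'y, hD, ← Finset.card_inter_add_card_sdiff (O y) (S ∪ T)]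
    have hE1 : E ⊆ nn2 O y ∪ D := by
      intro z hz
      rw [hE, Finset.mem_sdiff, Finset.mem_union, not_or] at hz
      obtain ⟨hz1, hz2, hz3⟩ := hz
      rw [Finset.mem_union]
      by_cases hzD : z ∈ D
      · exact Or.inr hzD
      left
      obtain ⟨x, hx, hzx⟩ := mem_NN.1 hz1
      rcases Finset.mem_insert.1 hzx with h | h
      · exact absurd (h ▸ hx) hzD
      rw [nn2, Finset.mem_filter]
      refine ⟨Finset.mem_univ _, fun h' => hz3 (h' ▸ hy), fun h' => ?_, x,
        (Finset.mem_sdiff.1 hx).1, h⟩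
      apply hzD
      rw [hD, Finset.mem_sdiff, Finset.mem_union, not_or]
      exact ⟨h', hz3, fun h'' => hz2 (sub_NN O T h'')⟩
    have hE2 : nn2 O' y ⊆ (nn2 O y ∪ D) \ E := by
      intro z hz
      rw [nn2, Finset.mem_filter] at hz
      obtain ⟨-, hzy, hzO, c, hc, hzc⟩ := hz
      rw [Finset.mem_sdiff, Finset.mem_union]
      constructor
      · by_cases h : z ∈ O y
        · right
          rw [hD, Finset.mem_sdiff]
          refine ⟨h, fun h' => hzO ?_⟩
          rw [hO'y, Finset.mem_inter]
          exact ⟨h, h'⟩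
        · left
          rw [nn2, Finset.mem_filter]
          exact ⟨Finset.mem_univ _, hzy, h, c, hsub _ hc, hsub _ hzc⟩
      · intro hzE
        rw [hE, Finset.mem_sdiff, Finset.mem_union, not_or] at hzE
        obtain ⟨-, hz2, hz3⟩ := hzE
        rw [hO'y, Finset.mem_inter, Finset.mem_union] at hc
        rcases hc.2 with h | h
        · simp only [O', h, if_true, Finset.mem_inter, Finset.mem_union] at hzc
          rcases hzc.2 with h' | h'
          · exact hz3 h'
          · exact hz2 (sub_NN O T h')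
        · exact hz2 (mem_NN.2 ⟨c, h, Finset.mem_insert_of_mem (hsub _ hzc)⟩)
    have h1 : (nn2 O' y).card + E.card ≤ (nn2 O y).card + D.card := by
      calc (nn2 O' y).card + E.card ≤ ((nn2 O y ∪ D) \ E).card + E.card :=
            Nat.add_le_add_right (Finset.card_le_card hE2) _
        _ = (nn2 O y ∪ D).card := Finset.card_sdiff_add_card_eq_card hE1
        _ ≤ _ := Finset.card_union_le _ _
    have h2 := hO.2 y
    omega
  · have hO'y : O' y = O y := by simp only [O', hy, if_false]
    have : nn2 O' y ⊆ nn2 O y := by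
      intro z hz
      rw [nn2, Finset.mem_filter] at hz ⊢
      obtain ⟨h0, hzy, hzO, c, hc, hzc⟩ := hz
      rw [hO'y] at hzO hc
      exact ⟨h0, hzy, hzO, c, hc, hsub _ hzc⟩
    rw [hO'y]
    exact lt_of_le_of_lt (Finset.card_le_card this) (hO.2 y)

end Vale.Agent.P038.H857
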