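import Vale.Agent.P038.H857.SNC
import Vale.Agent.P038.H857.G

open Finset

set_option linter.unusedSectionVars false

namespace Vale.Agent.P038.H857

variable {V : Type*} [Fintype V] [DecidableEq V]

theorem bd_submod (N : V → Finset V) (S T : Finset V) :
    bd N (S ∩ T) + bd N (S ∪ T) ≤ bd N S + bd N T := by
  unfold bd
  have h1 := Finset.card_union_add_card_inter S T
  have h2 := Finset.card_union_add_card_inter (NN N S) (NN N T)
  have h3 : NN N (S ∩ T) ⊆ NN N S ∩ NN N T :=
    Finset.subset_inter (NN_mono N Finset.inter_subset_left) (NN_mono N Finset.inter_subset_right)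
  have h4 := Finset.card_le_card h3
  rw [NN_union]
  omega

/-- Feasible pairs. -/
structure Feas (N P Q : V → Finset V) : Prop where
  p : ∀ a, N a ⊆ P a
  q : ∀ a, N a ⊆ Q a
  orth : ∀ a b, a ≠ b → b ∈ P a → a ∉ Q b

/-- Total boundary. -/
def tot (N P : V → Finset V) : ℤ := ∑ a, bd N (P a)

theorem tot_upd (N Q : V → Finset V) (b : V) (S : Finset V) :
    tot N (Function.update Q b S) = tot N Q - bd N (Q b) + bd N S := by
  unfold tot
  rw [← Finset.add_sum_erase univ _ (Finset.mem_univ b),
    ← Finset.add_sum_erase univ (fun a => bd N (Q a)) (Finset.mem_univ b), Function.update_self]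
  have : ∑ a ∈ univ.erase b, bd N (Function.update Q b S a) = ∑ a ∈ univ.erase b, bd N (Q a) :=
    Finset.sum_congr rfl fun a ha => by rw [Function.update_of_ne (Finset.ne_of_mem_erase ha)]
  rw [this]
  ring

theorem dc (r : V → V → Prop) [∀ a b, Decidable (r a b)] :
    ∑ a, ((univ.filter fun b => r a b).card : ℤ) = ∑ b, ((univ.filter fun a => r a b).card : ℤ) := by
  simp only [Finset.card_filter, Nat.cast_sum]
  exact Finset.sum_comm

theorem card_compl' (S : Finset V) : ((Sᶜ).card : ℤ) = Fintype.card V - S.card := by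
  have := Finset.card_add_card_compl S
  omega

section Step

variable {N P Q : V → Finset V}

/-- `b` with `a ∉ Q b`. -/
def Uo (Q : V → Finset V) (a : V) : Finset V := univ.filter fun b => a ∉ Q b

/-- with the diagonal. -/
def Ue (Q : V → Finset V) (a : V) : Finset V := univ.filter fun b => b = a ∨ a ∉ Q b

theorem mem_Uo {a b : V} : b ∈ Uo Q a ↔ a ∉ Q b := by simp [Uo]

theorem mem_Ue {a b : V} : b ∈ Ue Q a ↔ b = a ∨ a ∉ Q b := by simp [Ue]

theorem totQ (N Q : V → Finset V) :
    tot N Q = ∑ a, (((Uo Q a).card : ℤ) - (il N (Uo Q) a).card) := by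
  have h1 : ∑ a, ((Uo Q a).card : ℤ) = ∑ b, (((Q b)ᶜ).card : ℤ) := by
    unfold Uo
    rw [dc]
    refine Finset.sum_congr rfl fun b _ => ?_
    congr 2
    ext a
    simp
  have h2 : ∑ a, ((il N (Uo Q) a).card : ℤ) = ∑ b, (((NN N (Q b))ᶜ).card : ℤ) := by
    unfold il
    rw [dc]
    refine Finset.sum_congr rfl fun b _ => ?_
    congr 2
    ext a
    simp only [Finset.mem_filter, Finset.mem_univ, true_and, mem_Uo, Finset.mem_compl, mem_NN,
      not_exists, not_and]
    exact ⟨fun h s hs h' => h s h' hs, fun h s hs h' => h s h' hs⟩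
  rw [Finset.sum_sub_distrib, h1, h2, ← Finset.sum_sub_distrib]
  unfold tot bd
  refine Finset.sum_congr rfl fun b _ => ?_
  rw [card_compl', card_compl']
  ring

theorem totY (N Q : V → Finset V) :
    tot N (il N Q) = ∑ a, (((NN N (Uo Q a)).card : ℤ) -
      (il N (fun s => NN N (Uo Q s)) a).card) := by
  have h1 : ∑ a, ((NN N (Uo Q a)).card : ℤ) = ∑ b, (((il N Q b)ᶜ).card : ℤ) := by
    have e : ∀ a, NN N (Uo Q a) = univ.filter fun b => ∃ u, b ∈ N u ∧ a ∉ Q u := by
      intro a
      ext b
      simp only [mem_NN, mem_Uo, Finset.mem_filter, Finset.mem_univ, true_and]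
      exact ⟨fun ⟨u, h1, h2⟩ => ⟨u, h2, h1⟩, fun ⟨u, h1, h2⟩ => ⟨u, h2, h1⟩⟩
    simp only [e]
    rw [dc]
    refine Finset.sum_congr rfl fun b _ => ?_
    congr 2
    ext a
    simp only [Finset.mem_filter, Finset.mem_univ, true_and, Finset.mem_compl, mem_il]
    push Not
    rfl
  have h2 : ∑ a, ((il N (fun s => NN N (Uo Q s)) a).card : ℤ) =
      ∑ b, (((NN N (il N Q b))ᶜ).card : ℤ) := by
    have e : ∀ a, il N (fun s => NN N (Uo Q s)) a =
        univ.filter fun b => ∀ s, a ∈ N s → ∃ u, b ∈ N u ∧ s ∉ Q u := by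
      intro a
      ext b
      simp only [mem_NN, mem_Uo, Finset.mem_filter, Finset.mem_univ, true_and, mem_il]
      exact ⟨fun h s hs => let ⟨u, h1, h2⟩ := h s hs; ⟨u, h2, h1⟩,
        fun h s hs => let ⟨u, h1, h2⟩ := h s hs; ⟨u, h2, h1⟩⟩
    simp only [e]
    rw [dc]
    refine Finset.sum_congr rfl fun b _ => ?_
    congr 2
    ext a
    simp only [Finset.mem_filter, Finset.mem_univ, true_and, Finset.mem_compl, mem_NN, mem_il,
      not_exists, not_and]
    constructor
    · intro h s hs h'
      obtain ⟨u, h1, h2⟩ := h s h'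
      exact h2 (hs u h1)
    · intro h s hs
      by_contra hc
      push Not at hc
      exact h s (fun u hu => hc u hu) hs
  rw [Finset.sum_sub_distrib, h1, h2, ← Finset.sum_sub_distrib]
  unfold tot bd
  refine Finset.sum_congr rfl fun b _ => ?_
  rw [card_compl', card_compl']
  ring

theorem row1 (hN : ∀ a, a ∈ N a) (hF : Feas N P Q) (a : V) :
    bd N (Ue Q a) = (NN N (Uo Q a)).card - (Uo Q a).card := by
  have hA : ∀ a b, b ∈ N a → b ≠ a → b ∈ Uo Q a := fun a b h1 h2 =>
    mem_Uo.2 (hF.orth a b (Ne.symm h2) (hF.p a h1))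
  have e1 : Ue Q a = insert a (Uo Q a) := by
    ext b; simp [mem_Ue, mem_Uo]
  have n1 : a ∉ Uo Q a := fun h => (mem_Uo.1 h) (hF.q a (hN a))
  have n2 : a ∉ NN N (Uo Q a) := by
    intro h
    obtain ⟨b, hb, hab⟩ := mem_NN.1 h
    exact (mem_Uo.1 hb) (hF.q b hab)
  have e2 : NN N (Ue Q a) = insert a (NN N (Uo Q a)) := by
    ext x
    rw [e1, Finset.mem_insert, mem_NN]
    constructor
    · rintro ⟨u, hu, hx⟩
      rcases Finset.mem_insert.1 hu with rfl | hu
      · by_cases h : x = u
        · exact Or.inl h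
        · exact Or.inr (mem_NN.2 ⟨x, hA u x hx h, hN x⟩)
      · exact Or.inr (mem_NN.2 ⟨u, hu, hx⟩)
    · rintro (rfl | h)
      · exact ⟨x, Finset.mem_insert_self _ _, hN x⟩
      · obtain ⟨u, hu, hx⟩ := mem_NN.1 h
        exact ⟨u, Finset.mem_insert_of_mem hu, hx⟩
  unfold bd
  rw [e2, e1, Finset.card_insert_of_notMem n1, Finset.card_insert_of_notMem n2]
  push_cast
  ring

theorem row2 (hN : ∀ a, a ∈ N a) (hF : Feas N P Q) (a : V) :
    bd N (il N (Ue Q) a) ≤ (il N (fun s => NN N (Uo Q s)) a).card - (il N (Uo Q) a).card := by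
  have hA : ∀ a b, b ∈ N a → b ≠ a → b ∈ Uo Q a := fun a b h1 h2 =>
    mem_Uo.2 (hF.orth a b (Ne.symm h2) (hF.p a h1))
  have n1 : a ∉ il N (Uo Q) a := fun h =>
    (mem_Uo.1 ((mem_il N).1 h a (hN a))) (hF.q a (hN a))
  have e1 : il N (Ue Q) a = insert a (il N (Uo Q) a) := by
    ext b
    rw [Finset.mem_insert, mem_il, mem_il]
    constructor
    · intro h
      by_cases hb : b = a
      · exact Or.inl hb
      right
      intro s hs
      rcases mem_Ue.1 (h s hs) with h' | h'
      · subst h'
        rcases mem_Ue.1 (h a (hN a)) with h'' | h''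
        · exact absurd h'' hb
        · exact absurd (hF.q b hs) h''
      · exact mem_Uo.2 h'
    · rintro (rfl | h) s hs
      · by_cases h : b = s
        · exact mem_Ue.2 (Or.inl h)
        · exact mem_Ue.2 (Or.inr (mem_Uo.1 (hA s b hs h)))
      · exact mem_Ue.2 (Or.inr (mem_Uo.1 (h s hs)))
  have e2 : NN N (il N (Ue Q) a) ⊆ insert a (il N (fun s => NN N (Uo Q s)) a) := by
    intro x hx
    obtain ⟨u, hu, hxu⟩ := mem_NN.1 hx
    rw [Finset.mem_insert]
    by_cases hxa : x = a
    · exact Or.inl hxa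
    right
    rw [mem_il]
    intro s hs
    rw [e1, Finset.mem_insert] at hu
    rcases hu with rfl | hu
    · by_cases hsu : u = s
      · subst hsu
        exact mem_NN.2 ⟨x, hA u x hxu hxa, hN x⟩
      · exact mem_NN.2 ⟨u, hA s u hs hsu, hxu⟩
    · exact mem_NN.2 ⟨u, (mem_il N).1 hu s hs, hxu⟩
  have h := (Finset.card_le_card e2).trans (Finset.card_insert_le _ _)
  unfold bd
  rw [e1] at h ⊢
  rw [Finset.card_insert_of_notMem n1]
  push_cast
  omega

/-- The main comparison. -/
theorem step (hN : ∀ a, a ∈ N a) (hF : Feas N P Q)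
    (hmin : ∀ P' Q', Feas N P' Q' → tot N P + tot N Q ≤ tot N P' + tot N Q') :
    tot N (il N P) + tot N (il N Q) ≤ tot N P + tot N Q := by
  have hPU : ∀ a, P a ⊆ Ue Q a := fun a b hb => by
    by_cases h : b = a
    · exact mem_Ue.2 (Or.inl h)
    · exact mem_Ue.2 (Or.inr (hF.orth a b (Ne.symm h) hb))
  have hR : ∀ a S, P a ⊆ S → S ⊆ Ue Q a → bd N (P a) ≤ bd N S := by
    intro a S h1 h2
    have hF' : Feas N (Function.update P a S) Q := by
      refine ⟨fun b => ?_, hF.q, fun b x hbx hx => ?_⟩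
      · by_cases h : b = a
        · subst h
          rw [Function.update_self]
          exact (hF.p b).trans h1
        · rw [Function.update_of_ne h]
          exact hF.p b
      · by_cases h : b = a
        · subst h
          rw [Function.update_self] at hx
          rcases mem_Ue.1 (h2 hx) with h' | h'
          · exact absurd h'.symm hbx
          · exact h'
        · rw [Function.update_of_ne h] at hx
          exact hF.orth b x hbx hx
    have := hmin _ _ hF'
    rw [tot_upd] at this
    linarith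
  have hC : ∀ b (T : Finset V), (∀ z ∈ T, b ∈ Ue Q z ∧ b ∉ P z) →
      T.card ≤ ((T.biUnion N).filter fun a' => ∀ s, a' ∈ N s → b ∈ Ue Q s).card := by
    intro b T hT
    have hF' : Feas N P (Function.update Q b (Q b ∪ T)) := by
      refine ⟨hF.p, fun a => ?_, fun a x hax hx => ?_⟩
      · by_cases h : a = b
        · subst h
          rw [Function.update_self]
          exact (hF.q a).trans Finset.subset_union_left
        · rw [Function.update_of_ne h]
          exact hF.q a
      · by_cases h : x = b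
        · subst h
          rw [Function.update_self, Finset.mem_union, not_or]
          exact ⟨hF.orth a x hax hx, fun h' => (hT a h').2 hx⟩
        · rw [Function.update_of_ne h]
          exact hF.orth a x hax hx
    have h1 := hmin _ _ hF'
    rw [tot_upd] at h1
    have h2 : bd N (Q b) ≤ bd N (Q b ∪ T) := by linarith
    have hdis : Disjoint (Q b) T := by
      rw [Finset.disjoint_left]
      intro z hz hzT
      obtain ⟨h3, h4⟩ := hT z hzT
      rcases mem_Ue.1 h3 with h5 | h5
      · exact h4 (h5 ▸ hF.p b (hN b))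
      · exact h5 hz
    unfold bd at h2
    rw [NN_union, Finset.card_union_of_disjoint hdis] at h2
    have h3 : (NN N (Q b) ∪ NN N T).card = (NN N (Q b)).card + (NN N T \ NN N (Q b)).card := by
      rw [← Finset.card_union_of_disjoint Finset.disjoint_sdiff, Finset.union_sdiff_self_eq_union]
    rw [h3] at h2
    push_cast at h2
    have h4 : T.card ≤ (NN N T \ NN N (Q b)).card := by
      have : (T.card : ℤ) ≤ (NN N T \ NN N (Q b)).card := by linarith
      exact_mod_cast this
    refine h4.trans (Finset.card_le_card fun x hx => ?_)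
    rw [Finset.mem_sdiff] at hx
    rw [Finset.mem_filter]
    refine ⟨hx.1, fun s hs => mem_Ue.2 (Or.inr fun h => hx.2 (mem_NN.2 ⟨s, h, hs⟩))⟩
  have hk := key N (bd_submod N) hPU hR hC
  rw [Finset.sum_sub_distrib, Finset.sum_sub_distrib] at hk
  have h1 := totQ N Q
  have h2 := totY N Q
  have h3 : ∑ a, bd N (Ue Q a) = ∑ a, (((NN N (Uo Q a)).card : ℤ) - (Uo Q a).card) :=
    Finset.sum_congr rfl fun a _ => row1 hN hF a
  have h4 : ∑ a, bd N (il N (Ue Q) a) ≤ ∑ a, (((il N (fun s => NN N (Uo Q s)) a).card : ℤ) -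
      (il N (Uo Q) a).card) := Finset.sum_le_sum fun a _ => row2 hN hF a
  rw [Finset.sum_sub_distrib] at h1 h2 h3 h4
  have h5 : tot N P = ∑ a, bd N (P a) := rfl
  have h6 : tot N (il N P) = ∑ a, bd N (il N P a) := rfl
  linarith

end Step

/-- There is no inclusion-minimal counterexample. -/
theorem no_min [Nonempty V] {O : V → Finset V} (hO : CE O)
    (hmin : ∀ O' : V → Finset V, CE O' → (∀ v, O' v ⊆ O v) → O' = O) : False := by
  classical
  set N := cn O with hNdef
  have hN : ∀ a, a ∈ N a := fun a => Finset.mem_insert_self _ _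
  have hG : ∀ S, NN N S ≠ S → bd N (NN N S) < bd N S := G hO hmin
  have hG' : ∀ S, bd N (NN N S) ≤ bd N S := by
    intro S
    by_cases h : NN N S = S
    · rw [h]
    · exact (hG S h).le
  have hFN : Feas N N N := by
    refine ⟨fun _ => subset_refl _, fun _ => subset_refl _, fun a b hab h1 h2 => ?_⟩
    rcases Finset.mem_insert.1 h1 with h | h
    · exact hab h.symm
    rcases Finset.mem_insert.1 h2 with h' | h'
    · exact hab h'
    exact hO.1 a b h h'
  obtain ⟨⟨P, Q⟩, hF, hPQ⟩ := Set.exists_min_image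
    {x : (V → Finset V) × (V → Finset V) | Feas N x.1 x.2} (fun x => tot N x.1 + tot N x.2)
    (Set.toFinite _) ⟨(N, N), hFN⟩
  have hF : Feas N P Q := hF
  have hPQ' : ∀ P' Q', Feas N P' Q' → tot N P + tot N Q ≤ tot N P' + tot N Q' :=
    fun P' Q' h => hPQ (P', Q') h
  have hstep := step hN hF hPQ'
  have hF2 : Feas N (fun a => NN N (il N P a)) (fun a => NN N (il N Q a)) := by
    refine ⟨fun a x hx => mem_NN.2 ⟨a, (mem_il N).2 fun s hs => hF.p s hs, hx⟩,
      fun a x hx => mem_NN.2 ⟨a, (mem_il N).2 fun s hs => hF.q s hs, hx⟩, ?_⟩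
    intro a b hab h1 h2
    obtain ⟨x, hx, hbx⟩ := mem_NN.1 h1
    obtain ⟨y, hy, hay⟩ := mem_NN.1 h2
    rw [mem_il] at hx hy
    have hxy : x = y := by
      by_contra hc
      exact hF.orth y x (Ne.symm hc) (hx y hay) (hy x hbx)
    subst hxy
    have hax : a = x := by
      by_contra hc
      exact hF.orth a x hc (hx a (hN a)) (hF.q x hay)
    have hxb : x = b := by
      by_contra hc
      exact hF.orth x b hc (hF.p x hbx) (hy b (hN b))
    exact hab (hax.trans hxb)
  have h2 := hPQ' _ _ hF2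
  have hXcl : ∀ a, NN N (il N P a) = il N P a := by
    intro a
    by_contra hc
    have h3 : tot N (fun a => NN N (il N P a)) < tot N (il N P) :=
      Finset.sum_lt_sum (fun b _ => hG' _) ⟨a, Finset.mem_univ _, hG _ hc⟩
    have h4 : tot N (fun a => NN N (il N Q a)) ≤ tot N (il N Q) :=
      Finset.sum_le_sum fun b _ => hG' _
    linarith
  -- a cycle
  let R : V → Finset V := fun a => univ.filter fun x => ∀ S : Finset V, a ∈ S → NN N S = S → x ∈ S
  have hRm : ∀ a x, x ∈ R a ↔ ∀ S : Finset V, a ∈ S → NN N S = S → x ∈ S := by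
    intro a x; simp [R]
  have hRa : ∀ a, a ∈ R a := fun a => (hRm a a).2 fun S h _ => h
  have hRcl : ∀ a, NN N (R a) = R a := by
    intro a
    refine subset_antisymm (fun x hx => ?_) (sub_NN O _)
    obtain ⟨y, hy, hxy⟩ := mem_NN.1 hx
    rw [hRm] at hy ⊢
    intro S h1 h2
    rw [← h2]
    exact mem_NN.2 ⟨y, hy S h1 h2, hxy⟩
  obtain ⟨a, -, ha⟩ := Finset.exists_min_image univ (fun a => (R a).card) Finset.univ_nonempty
  have hOa : (O a).Nonempty := by
    rw [← Finset.card_pos]
    exact lt_of_le_of_lt (Nat.zero_le _) (hO.2 a)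
  obtain ⟨b, hb⟩ := hOa
  have hbR : b ∈ R a := by
    rw [← hRcl a]
    exact mem_NN.2 ⟨a, hRa a, Finset.mem_insert_of_mem hb⟩
  have hsub : R b ⊆ R a := fun x hx => (hRm b x).1 hx (R a) hbR (hRcl a)
  have heq : R b = R a := Finset.eq_of_subset_of_card_le hsub (ha b (Finset.mem_univ _))
  have haX : a ∈ il N P b := by
    have : a ∈ R b := by rw [heq]; exact hRa a
    exact (hRm b a).1 this _ ((mem_il N).2 fun s hs => hF.p s hs) (hXcl b)
  have hne : b ≠ a := by
    rintro rfl
    exact hO.1 b b hb hb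
  exact hF.orth b a hne ((mem_il N).1 haX b (hN b)) (hF.q a (Finset.mem_insert_of_mem hb))

/-- **Seymour's second neighbourhood conjecture.** -/
theorem seymour [Nonempty V] (O : V → Finset V) (hO : Ori O) :
    ∃ v, (O v).card ≤ (nn2 O v).card := by
  classical
  by_contra hcon
  push Not at hcon
  obtain ⟨O₀, h0, hmin⟩ := Set.exists_min_image {O : V → Finset V | CE O}
    (fun O => ∑ v, (O v).card) (Set.toFinite _) ⟨O, hO, hcon⟩
  refine no_min (O := O₀) h0 fun O' h' hsub => ?_
  by_contra hne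
  have : ∃ v, O' v ≠ O₀ v := by
    by_contra hc
    push Not at hc
    exact hne (funext hc)
  obtain ⟨v, hv⟩ := this
  have hlt : ∑ v, (O' v).card < ∑ v, (O₀ v).card :=
    Finset.sum_lt_sum (fun u _ => Finset.card_le_card (hsub u))
      ⟨v, Finset.mem_univ _, Finset.card_lt_card
        (Finset.ssubset_iff_subset_ne.2 ⟨hsub v, hv⟩)⟩
  exact absurd (hmin O' h') (not_le.2 hlt)

end Vale.Agent.P038.H857
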